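import Vale.Agent.P213.WE.HtpcBasic
import Vale.Agent.P213.Main.SSetGoals
import Mathlib.AlgebraicTopology.SimplicialSet.AnodyneExtensions.PushoutProduct
import Mathlib.AlgebraicTopology.SimplicialSet.HornColimits

/-!
# Homotopy of maps into a Kan complex, edges of the mapping complex, anodyne extensions
-/

open CategoryTheory MonoidalCategory CartesianMonoidalCategory MonoidalClosed Simplicial
open HomotopicalAlgebra Limits
open scoped SSet.modelCategoryQuillen

namespace Vale.Agent.P213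

attribute [local instance 2000] FunctorToTypes.monoidalClosed

variable {X Y K : SSet.{0}}

/-- A map, as a vertex of the mapping complex. -/
noncomputable def vert (f : X ⟶ K) : (Δ[0] : SSet) ⟶ (ihom X).obj K :=
  curry (fst X Δ[0] ≫ f)

lemma δ_one_eq :
    (SSet.stdSimplex.δ (1 : Fin 2) : (Δ[0] : SSet.{0}) ⟶ Δ[1])
      = SSet.const (SSet.stdSimplex.obj₀Equiv.symm 0) := by
  apply SSet.yonedaEquiv.injective
  ext k
  fin_cases k
  rfl

lemma δ_zero_eq :
    (SSet.stdSimplex.δ (0 : Fin 2) : (Δ[0] : SSet.{0}) ⟶ Δ[1])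
      = SSet.const (SSet.stdSimplex.obj₀Equiv.symm 1) := by
  apply SSet.yonedaEquiv.injective
  ext k
  fin_cases k
  rfl

lemma whisker_δ_one (X : SSet.{0}) :
    X ◁ SSet.stdSimplex.δ (1 : Fin 2) = fst X Δ[0] ≫ SSet.ι₀ := by
  rw [δ_one_eq]; rfl

lemma whisker_δ_zero (X : SSet.{0}) :
    X ◁ SSet.stdSimplex.δ (0 : Fin 2) = fst X Δ[0] ≫ SSet.ι₁ := by
  rw [δ_zero_eq]; rfl

lemma fst_Δ0_cancel {f g : X ⟶ K} (h : fst X Δ[0] ≫ f = fst X Δ[0] ≫ g) : f = g := by
  have := congrArg (fun k =>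
    lift (𝟙 X) (SSet.const (SSet.stdSimplex.obj₀Equiv.symm (0 : Fin 1))) ≫ k) h
  simpa using this

lemma vert_injective : Function.Injective (vert : (X ⟶ K) → _) := fun _ _ h =>
  fst_Δ0_cancel (curry_injective h)

/-- Homotopies are edges of the mapping complex. -/
lemma htpc_iff_edge {f g : X ⟶ K} :
    Htpc f g ↔ ∃ e : (Δ[1] : SSet) ⟶ (ihom X).obj K,
      SSet.stdSimplex.δ 1 ≫ e = vert f ∧ SSet.stdSimplex.δ 0 ≫ e = vert g := by
  constructor
  · intro H
    obtain ⟨h, h₀, h₁⟩ := H.exists_map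
    refine ⟨curry h, ?_, ?_⟩
    · rw [← curry_natural_left, whisker_δ_one, Category.assoc, h₀, vert]
    · rw [← curry_natural_left, whisker_δ_zero, Category.assoc, h₁, vert]
  · rintro ⟨e, e₀, e₁⟩
    refine Htpc.mk (uncurry e) (fst_Δ0_cancel ?_) (fst_Δ0_cancel ?_)
    · rw [← Category.assoc, ← whisker_δ_one, ← uncurry_natural_left, e₀, vert, uncurry_curry]
    · rw [← Category.assoc, ← whisker_δ_zero, ← uncurry_natural_left, e₁, vert, uncurry_curry]

lemma Htpc.symm' [SSet.KanComplex K] {f g : X ⟶ K} (H : Htpc f g) : Htpc g f := by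
  obtain ⟨e, e₀, e₁⟩ := htpc_iff_edge.1 H
  let t : (Δ[1] : SSet) ⟶ (ihom X).obj K :=
    SSet.stdSimplex.σ (0 : Fin 1) ≫ vert f
  have ht : SSet.stdSimplex.δ (1 : Fin 2) ≫ t = vert f :=
    (Category.assoc _ _ _).symm.trans ((congrArg (· ≫ vert f)
      (CosimplicialObject.δ_comp_σ_succ SSet.stdSimplex (i := (0 : Fin 1)))).trans (Category.id_comp _))
  have ht' : SSet.stdSimplex.δ (0 : Fin 2) ≫ t = vert f :=
    (Category.assoc _ _ _).symm.trans ((congrArg (· ≫ vert f)
      (CosimplicialObject.δ_comp_σ_self SSet.stdSimplex (i := (0 : Fin 1)))).trans (Category.id_comp _))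
  obtain ⟨φ, hφ⟩ := SSet.KanComplex.hornFilling
    (SSet.horn₂₀.isPushout.desc e t (by rw [e₀, ht]))
  have f₁ : SSet.stdSimplex.δ (2 : Fin 3) ≫ φ = e := by
    rw [← SSet.horn.ι_ι 0 2 (by simp), Category.assoc, ← hφ, IsPushout.inl_desc]
  have f₂ : SSet.stdSimplex.δ (1 : Fin 3) ≫ φ = t := by
    rw [← SSet.horn.ι_ι 0 1 (by simp), Category.assoc, ← hφ, IsPushout.inr_desc]
  refine htpc_iff_edge.2 ⟨SSet.stdSimplex.δ (0 : Fin 3) ≫ φ, ?_, ?_⟩
  · rw [← e₁, ← f₁, ← Category.assoc, ← Category.assoc]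
    congr 1
    exact (SSet.stdSimplex.δ_comp_δ (i := (0 : Fin 2)) (j := 1) (by simp)).symm
  · rw [← ht', ← f₂, ← Category.assoc, ← Category.assoc]
    congr 1

lemma Htpc.trans' [SSet.KanComplex K] {f g k : X ⟶ K} (H : Htpc f g) (H' : Htpc g k) :
    Htpc f k := by
  obtain ⟨e, e₀, e₁⟩ := htpc_iff_edge.1 H
  obtain ⟨e', e'₀, e'₁⟩ := htpc_iff_edge.1 H'
  obtain ⟨φ, hφ⟩ := SSet.KanComplex.hornFilling
    (SSet.horn₂₁.isPushout.desc e e' (by rw [e₁, e'₀]))
  have f₁ : SSet.stdSimplex.δ (2 : Fin 3) ≫ φ = e := by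
    rw [← SSet.horn.ι_ι 1 2 (by simp), Category.assoc, ← hφ, IsPushout.inl_desc]
  have f₂ : SSet.stdSimplex.δ (0 : Fin 3) ≫ φ = e' := by
    rw [← SSet.horn.ι_ι 1 0 (by simp), Category.assoc, ← hφ, IsPushout.inr_desc]
  refine htpc_iff_edge.2 ⟨SSet.stdSimplex.δ (1 : Fin 3) ≫ φ, ?_, ?_⟩
  · rw [← e₀, ← f₁, ← Category.assoc, ← Category.assoc]
    congr 1
    exact (SSet.stdSimplex.δ_comp_δ (i := (1 : Fin 2)) (j := 1) le_rfl).symm
  · rw [← e'₁, ← f₂, ← Category.assoc, ← Category.assoc]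
    congr 1

/-- For a Kan target homotopy is an equivalence relation. -/
lemma htpc_equivalence [SSet.KanComplex K] : Equivalence (Htpc (X := X) (Y := K)) :=
  ⟨Htpc.refl, Htpc.symm', Htpc.trans'⟩

lemma htpcEqv_iff [SSet.KanComplex K] {f g : X ⟶ K} : HtpcEqv f g ↔ Htpc f g :=
  ⟨fun h => htpc_equivalence.eqvGen_iff.1 h, HtpcEqv.of_htpc⟩

/-- The value at the first vertex of a simplex of `Δ[1]`. -/
noncomputable def val₀ {m : SimplexCategoryᵒᵖ} (x : (Δ[1] : SSet.{0}).obj m) : Fin 2 :=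
  (SSet.stdSimplex.objEquiv x).toOrderHom 0

/-- The map out of `∂Δ[1]` given by two vertices. -/
noncomputable def endsMap {S : SSet.{0}} (a b : S _⦋0⦌) : (∂Δ[1] : SSet.{0}) ⟶ S where
  app m := TypeCat.ofHom fun x =>
    if val₀ x.1 = 0 then (SSet.const a : (∂Δ[1] : SSet.{0}) ⟶ S).app m x
    else (SSet.const b : (∂Δ[1] : SSet.{0}) ⟶ S).app m x
  naturality m m' g := by
    ext x
    have hx : ¬ Function.Surjective (SSet.stdSimplex.objEquiv x.1).toOrderHom := x.2
    simp only [Function.Surjective, not_forall, not_exists] at hx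
    obtain ⟨c, hc⟩ := hx
    have e : val₀ ((ConcreteCategory.hom ((∂Δ[1] : SSet.{0}).map g)) x).1 = val₀ x.1 := by
      change (SSet.stdSimplex.objEquiv x.1).toOrderHom (g.unop.toOrderHom 0)
        = (SSet.stdSimplex.objEquiv x.1).toOrderHom 0
      have h1 := hc (g.unop.toOrderHom 0)
      have h2 := hc 0
      simp only [SimplexCategory.len_mk] at *
      omega
    let A : (∂Δ[1] : SSet.{0}) ⟶ S := SSet.const a
    let B : (∂Δ[1] : SSet.{0}) ⟶ S := SSet.const b
    change (if val₀ ((ConcreteCategory.hom ((∂Δ[1] : SSet.{0}).map g)) x).1 = 0 then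
        A.app m' ((∂Δ[1] : SSet.{0}).map g x) else B.app m' ((∂Δ[1] : SSet.{0}).map g x))
      = S.map g (if val₀ x.1 = 0 then A.app m x else B.app m x)
    rw [e]
    split_ifs
    · exact ConcreteCategory.congr_hom ((SSet.const a : (∂Δ[1] : SSet.{0}) ⟶ S).naturality g) x
    · exact ConcreteCategory.congr_hom ((SSet.const b : (∂Δ[1] : SSet.{0}) ⟶ S).naturality g) x

lemma ι_one_endsMap {S : SSet.{0}} (a b : S _⦋0⦌) :
    SSet.boundary.ι (1 : Fin 2) ≫ endsMap a b = SSet.yonedaEquiv.symm a := by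
  apply SSet.yonedaEquiv.injective
  rw [Equiv.apply_symm_apply, SSet.yonedaEquiv_comp]
  simp [endsMap, val₀]
  intro h
  exact absurd rfl h

lemma ι_zero_endsMap {S : SSet.{0}} (a b : S _⦋0⦌) :
    SSet.boundary.ι (0 : Fin 2) ≫ endsMap a b = SSet.yonedaEquiv.symm b := by
  apply SSet.yonedaEquiv.injective
  rw [Equiv.apply_symm_apply, SSet.yonedaEquiv_comp]
  simp [endsMap, val₀]
  intro h
  exact absurd h (by decide)

/-- Anodyne extensions are weak equivalences. -/
theorem isWE_of_anodyne {f : X ⟶ Y} (hf : SSet.anodyneExtensions f) : IsWE f := by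
  intro K hK
  constructor
  · intro a
    have : HasLiftingProperty f (terminal.from K) := hf _ (HomotopicalAlgebra.mem_fibrations _)
    have sq : CommSq a f (terminal.from K) (terminal.from Y) := ⟨by simp⟩
    exact ⟨sq.lift, .of_eq sq.fac_left⟩
  · intro b b' h
    obtain ⟨e, e₀, e₁⟩ := htpc_iff_edge.1 (htpcEqv_iff.1 h)
    set p : (ihom Y).obj K ⟶ (ihom X).obj K := (MonoidalClosed.pre f).app K with hp_def
    have hp : HasLiftingProperty (∂Δ[1] : (Δ[1] : SSet.{0}).Subcomplex).ι p := by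
      let sq₁₃ := Functor.PullbackObjObj.ofIsTerminal MonoidalClosed.internalHom f
        (terminal.from K) terminalIsTerminal
      let sq₁₂ := Functor.PushoutObjObj.ofHasPushout (curriedTensor SSet.{0}) f
        (∂Δ[1] : (Δ[1] : SSet.{0}).Subcomplex).ι
      have := (internalHomAdjunction₂.hasLiftingProperty_iff sq₁₂ sq₁₃).1 ?_
      · simp only [sq₁₃, Functor.PullbackObjObj.ofIsTerminal_π] at this
        simp only [MonoidalClosed.internalHom, Quiver.Hom.unop_op] at this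
        rw [hp_def]
        exact this
      exact SSet.anodyneExtensions_pushoutObjObjι' sq₁₂ hf _ (HomotopicalAlgebra.mem_fibrations _)
    have hb : ∀ c : Y ⟶ K, vert c ≫ p = vert (f ≫ c) := fun c => by
      rw [hp_def, vert, curry_pre_app, vert]
      rfl
    let bd : (∂Δ[1] : SSet.{0}) ⟶ (ihom Y).obj K :=
      endsMap (SSet.yonedaEquiv (vert b)) (SSet.yonedaEquiv (vert b'))
    have w : bd ≫ p = (∂Δ[1] : (Δ[1] : SSet.{0}).Subcomplex).ι ≫ e := by
      refine SSet.boundary.hom_ext fun i => ?_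
      fin_cases i
      · simp only [bd, Fin.zero_eta]
        rw [← Category.assoc, ι_zero_endsMap, Equiv.symm_apply_apply, hb,
          SSet.boundary.ι_ι_assoc, e₁]
      · simp only [bd, Fin.mk_one]
        rw [← Category.assoc, ι_one_endsMap, Equiv.symm_apply_apply, hb,
          SSet.boundary.ι_ι_assoc, e₀]
    have sq : CommSq bd (∂Δ[1] : (Δ[1] : SSet.{0}).Subcomplex).ι p e := ⟨w⟩
    refine .of_htpc (htpc_iff_edge.2 ⟨sq.lift, ?_, ?_⟩)
    · rw [← SSet.boundary.ι_ι, Category.assoc, sq.fac_left, ι_one_endsMap,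
        Equiv.symm_apply_apply]
    · rw [← SSet.boundary.ι_ι, Category.assoc, sq.fac_left, ι_zero_endsMap,
        Equiv.symm_apply_apply]

theorem twoThreeGoal : TwoThreeGoal :=
  ⟨inferInstance, inferInstance⟩

theorem anodyneExtensions_sigma_horn {ι : Type} (m : ι → ℕ) (k : ∀ a, Fin (m a + 2)) :
    SSet.anodyneExtensions
      (Limits.Sigma.map fun a => (SSet.horn.{0} (m a + 1) (k a)).ι) :=
  SSet.anodyneExtensions.colimMap (Discrete.natTrans _) fun _ =>
    SSet.anodyneExtensions.horn_ι _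

theorem hornGoal : HornGoal := fun _ m k =>
  isWE_of_anodyne (anodyneExtensions_sigma_horn m k)

end Vale.Agent.P213
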