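import Vale.Agent.P213.WE.KanTarget

/-!
# Trivial fibrations are weak homotopy equivalences
-/

open CategoryTheory MonoidalCategory CartesianMonoidalCategory MonoidalClosed Simplicial
open HomotopicalAlgebra Limits
open scoped SSet.modelCategoryQuillen

namespace Vale.Agent.P213

attribute [local instance 2000] FunctorToTypes.monoidalClosed

variable {X Y : SSet.{0}}

instance mono_whiskerLeft_sset (Z : SSet.{0}) {A B : SSet.{0}} (i : A ⟶ B) [Mono i] :
    Mono (Z ◁ i) := by
  constructor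
  intro W u v h
  ext1
  · simpa using congrArg (· ≫ fst Z B) h
  · rw [← cancel_mono i]
    simpa using congrArg (· ≫ snd Z B) h

/-- A trivial fibration has a section which is a homotopy inverse. -/
theorem exists_section_of_rlp_I {p : X ⟶ Y} (hp : SSet.modelCategoryQuillen.I.rlp p) :
    ∃ s : Y ⟶ X, s ≫ p = 𝟙 Y ∧ Htpc (p ≫ s) (𝟙 X) := by
  rw [← SSet.rlp_monomorphisms] at hp
  have : HasLiftingProperty (initial.to Y) p := hp _ (inferInstanceAs (Mono (initial.to Y)))
  have sq₀ : CommSq (initial.to X) (initial.to Y) p (𝟙 Y) := ⟨by simp⟩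
  refine ⟨sq₀.lift, sq₀.fac_right, ?_⟩
  have hs : (p ≫ sq₀.lift) ≫ p = p := by rw [Category.assoc, sq₀.fac_right, Category.comp_id]
  let bd : (∂Δ[1] : SSet.{0}) ⟶ (ihom X).obj X :=
    endsMap (SSet.yonedaEquiv (vert (p ≫ sq₀.lift))) (SSet.yonedaEquiv (vert (𝟙 X)))
  have hv : ∀ a : X ⟶ X, vert a ≫ (ihom X).map p = vert (a ≫ p) := fun a => by
    rw [vert, ← curry_natural_right, Category.assoc, ← vert]
  have hc : ∀ δ' : (Δ[0] : SSet) ⟶ Δ[1],
      δ' ≫ curry (fst X Δ[1] ≫ p) = vert p := fun δ' => by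
    rw [← curry_natural_left, whiskerLeft_fst_assoc, vert]
  have w : bd ≫ (ihom X).map p
      = (∂Δ[1] : (Δ[1] : SSet.{0}).Subcomplex).ι ≫ curry (fst X Δ[1] ≫ p) := by
    refine SSet.boundary.hom_ext fun i => ?_
    fin_cases i
    · simp only [bd, Fin.zero_eta]
      rw [← Category.assoc, ι_zero_endsMap, Equiv.symm_apply_apply, hv, Category.id_comp,
        SSet.boundary.ι_ι_assoc, hc]
    · simp only [bd, Fin.mk_one]
      rw [← Category.assoc, ι_one_endsMap, Equiv.symm_apply_apply, hv, hs,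
        SSet.boundary.ι_ι_assoc, hc]
  have : HasLiftingProperty (X ◁ (∂Δ[1] : (Δ[1] : SSet.{0}).Subcomplex).ι) p :=
    hp _ (inferInstanceAs (Mono _))
  have sq : CommSq (uncurry bd) (X ◁ (∂Δ[1] : (Δ[1] : SSet.{0}).Subcomplex).ι) p
      (fst X Δ[1] ≫ p) := ⟨curry_injective (by
    rw [curry_natural_right, curry_uncurry, curry_natural_left, w])⟩
  have hl : (∂Δ[1] : (Δ[1] : SSet.{0}).Subcomplex).ι ≫ curry sq.lift = bd := by
    rw [← curry_natural_left, sq.fac_left, curry_uncurry]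
  refine htpc_iff_edge.2 ⟨curry sq.lift, ?_, ?_⟩
  · rw [← SSet.boundary.ι_ι, Category.assoc, hl, ι_one_endsMap, Equiv.symm_apply_apply]
  · rw [← SSet.boundary.ι_ι, Category.assoc, hl, ι_zero_endsMap, Equiv.symm_apply_apply]

/-- Trivial fibrations are weak equivalences. -/
theorem isWE_of_rlp_I {p : X ⟶ Y} (hp : SSet.modelCategoryQuillen.I.rlp p) : IsWE p := by
  obtain ⟨s, h₁, h₂⟩ := exists_section_of_rlp_I hp
  exact .of_htpc_inverse s (.of_htpc h₂) (.of_eq h₁)

end Vale.Agent.P213
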