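import Vale.Agent.P213.Basic.WE
import Mathlib.CategoryTheory.MorphismProperty.Composition
import Mathlib.CategoryTheory.MorphismProperty.Retract

/-!
# Formal properties of weak homotopy equivalences
-/

open CategoryTheory MonoidalCategory CartesianMonoidalCategory Simplicial

namespace Vale.Agent.P213

variable {X Y Z : SSet.{0}}

lemma Htpc.refl (f : X ⟶ Y) : Htpc f f :=
  ⟨SSet.RelativeMorphism.Homotopy.refl _⟩

/-- A homotopy from a map out of the cylinder. -/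
lemma Htpc.mk {f g : X ⟶ Y} (h : X ⊗ Δ[1] ⟶ Y) (h₀ : SSet.ι₀ ≫ h = f) (h₁ : SSet.ι₁ ≫ h = g) :
    Htpc f g :=
  ⟨{ h := h
     h₀ := h₀
     h₁ := h₁
     rel := by
      ext n a
      exact a.1.2.elim }⟩

lemma Htpc.exists_map {f g : X ⟶ Y} (H : Htpc f g) :
    ∃ h : X ⊗ Δ[1] ⟶ Y, SSet.ι₀ ≫ h = f ∧ SSet.ι₁ ≫ h = g :=
  H.elim fun h => ⟨h.h, h.h₀, h.h₁⟩

lemma Htpc.precomp {f g : X ⟶ Y} (H : Htpc f g) (p : Z ⟶ X) : Htpc (p ≫ f) (p ≫ g) := by
  obtain ⟨h, h₀, h₁⟩ := H.exists_map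
  exact Htpc.mk (p ▷ _ ≫ h) (by rw [SSet.ι₀_comp_assoc, h₀]) (by rw [SSet.ι₁_comp_assoc, h₁])

lemma Htpc.postcomp {f g : X ⟶ Y} (H : Htpc f g) (q : Y ⟶ Z) : Htpc (f ≫ q) (g ≫ q) := by
  obtain ⟨h, h₀, h₁⟩ := H.exists_map
  exact Htpc.mk (h ≫ q) (by rw [← Category.assoc, h₀]) (by rw [← Category.assoc, h₁])

lemma HtpcEqv.of_htpc {f g : X ⟶ Y} (H : Htpc f g) : HtpcEqv f g := Relation.EqvGen.rel _ _ H

lemma HtpcEqv.refl (f : X ⟶ Y) : HtpcEqv f f := Relation.EqvGen.refl f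

lemma HtpcEqv.of_eq {f g : X ⟶ Y} (h : f = g) : HtpcEqv f g := h ▸ HtpcEqv.refl f

lemma HtpcEqv.symm {f g : X ⟶ Y} (h : HtpcEqv f g) : HtpcEqv g f := Relation.EqvGen.symm _ _ h

lemma HtpcEqv.trans {f g k : X ⟶ Y} (h : HtpcEqv f g) (h' : HtpcEqv g k) : HtpcEqv f k :=
  Relation.EqvGen.trans _ _ _ h h'

lemma HtpcEqv.precomp {f g : X ⟶ Y} (h : HtpcEqv f g) (p : Z ⟶ X) :
    HtpcEqv (p ≫ f) (p ≫ g) := by
  induction h with
  | rel _ _ h => exact .of_htpc (h.precomp p)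
  | refl _ => exact .refl _
  | symm _ _ _ ih => exact ih.symm
  | trans _ _ _ _ _ ih₁ ih₂ => exact ih₁.trans ih₂

lemma HtpcEqv.postcomp {f g : X ⟶ Y} (h : HtpcEqv f g) (q : Y ⟶ Z) :
    HtpcEqv (f ≫ q) (g ≫ q) := by
  induction h with
  | rel _ _ h => exact .of_htpc (h.postcomp q)
  | refl _ => exact .refl _
  | symm _ _ _ ih => exact ih.symm
  | trans _ _ _ _ _ ih₁ ih₂ => exact ih₁.trans ih₂

/-- A map with a homotopy inverse is a weak equivalence. -/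
lemma IsWE.of_htpc_inverse {f : X ⟶ Y} (g : Y ⟶ X) (h₁ : HtpcEqv (f ≫ g) (𝟙 X))
    (h₂ : HtpcEqv (g ≫ f) (𝟙 Y)) : IsWE f := by
  refine fun K _ => ⟨fun a => ⟨g ≫ a, ?_⟩, fun b b' h => ?_⟩
  · simpa using h₁.postcomp a
  · have h' := h.precomp g
    rw [← Category.assoc, ← Category.assoc] at h'
    have e₁ : HtpcEqv ((g ≫ f) ≫ b) b := by simpa using h₂.postcomp b
    have e₂ : HtpcEqv ((g ≫ f) ≫ b') b' := by simpa using h₂.postcomp b'
    exact e₁.symm.trans (h'.trans e₂)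

lemma IsWE.of_isIso (f : X ⟶ Y) [IsIso f] : IsWE f :=
  .of_htpc_inverse (inv f) (.of_eq (by simp)) (.of_eq (by simp))

lemma IsWE.id (X : SSet.{0}) : IsWE (𝟙 X) := .of_isIso _

lemma IsWE.comp {f : X ⟶ Y} {g : Y ⟶ Z} (hf : IsWE f) (hg : IsWE g) : IsWE (f ≫ g) := by
  refine fun K hK => ⟨fun a => ?_, fun b b' h => ?_⟩
  · obtain ⟨b, hb⟩ := (hf K hK).1 a
    obtain ⟨c, hc⟩ := (hg K hK).1 b
    refine ⟨c, ?_⟩
    rw [Category.assoc]
    exact (hc.precomp f).trans hb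
  · rw [Category.assoc, Category.assoc] at h
    exact (hg K hK).2 b b' ((hf K hK).2 _ _ h)

/-- If `f` and `f ≫ g` are weak equivalences, so is `g`. -/
lemma IsWE.of_comp_left {f : X ⟶ Y} {g : Y ⟶ Z} (hf : IsWE f) (hfg : IsWE (f ≫ g)) : IsWE g := by
  refine fun K hK => ⟨fun a => ?_, fun b b' h => ?_⟩
  · obtain ⟨c, hc⟩ := (hfg K hK).1 (f ≫ a)
    rw [Category.assoc] at hc
    exact ⟨c, (hf K hK).2 _ _ hc⟩
  · refine (hfg K hK).2 b b' ?_
    rw [Category.assoc, Category.assoc]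
    exact h.precomp f

/-- If `g` and `f ≫ g` are weak equivalences, so is `f`. -/
lemma IsWE.of_comp_right {f : X ⟶ Y} {g : Y ⟶ Z} (hg : IsWE g) (hfg : IsWE (f ≫ g)) : IsWE f := by
  refine fun K hK => ⟨fun a => ?_, fun b b' h => ?_⟩
  · obtain ⟨c, hc⟩ := (hfg K hK).1 a
    rw [Category.assoc] at hc
    exact ⟨g ≫ c, hc⟩
  · obtain ⟨c, hc⟩ := (hg K hK).1 b
    obtain ⟨c', hc'⟩ := (hg K hK).1 b'
    have h' : HtpcEqv ((f ≫ g) ≫ c) ((f ≫ g) ≫ c') := by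
      rw [Category.assoc, Category.assoc]
      exact ((hc.precomp f).trans h).trans (hc'.precomp f).symm
    exact hc.symm.trans ((((hfg K hK).2 _ _ h').precomp g).trans hc')

/-- Being a weak equivalence only depends on the homotopy class. -/
lemma IsWE.congr {f f' : X ⟶ Y} (h : HtpcEqv f f') (hf : IsWE f) : IsWE f' := by
  refine fun K hK => ⟨fun a => ?_, fun b b' e => ?_⟩
  · obtain ⟨b, hb⟩ := (hf K hK).1 a
    exact ⟨b, (h.postcomp b).symm.trans hb⟩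
  · exact (hf K hK).2 b b' (((h.postcomp b).trans e).trans (h.postcomp b').symm)

/-- A retract of a weak equivalence is a weak equivalence. -/
lemma IsWE.of_retract {W : SSet.{0}} {f : X ⟶ Y} {g : Z ⟶ W} (r : RetractArrow f g)
    (hg : IsWE g) : IsWE f := by
  refine fun K hK => ⟨fun a => ?_, fun b b' h => ?_⟩
  · obtain ⟨c, hc⟩ := (hg K hK).1 (r.r.left ≫ a)
    refine ⟨r.i.right ≫ c, ?_⟩
    have h' := hc.precomp r.i.left
    rwa [r.i_w_assoc, r.retract_left_assoc] at h'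
  · have h' := h.precomp r.r.left
    rw [r.r_w_assoc, r.r_w_assoc] at h'
    have h'' := ((hg K hK).2 _ _ h').precomp r.i.right
    simpa using h''

instance : IsWE.IsMultiplicative where
  id_mem := IsWE.id
  comp_mem _ _ := IsWE.comp

instance : IsWE.RespectsIso where
  precomp i hi f hf := by
    have : IsIso i := hi
    exact (IsWE.of_isIso i).comp hf
  postcomp i hi f hf := by
    have : IsIso i := hi
    exact hf.comp (IsWE.of_isIso i)

instance : IsWE.HasTwoOutOfThreeProperty where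
  of_postcomp _ _ hg hfg := IsWE.of_comp_right hg hfg
  of_precomp _ _ hf hfg := IsWE.of_comp_left hf hfg

instance : IsWE.IsStableUnderRetracts where
  of_retract r hg := IsWE.of_retract r hg

end Vale.Agent.P213
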