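import Mathlib.AlgebraicTopology.SimplicialSet.AnodyneExtensions.Basic
import Mathlib.AlgebraicTopology.SimplicialSet.Monomorphisms
import Mathlib.CategoryTheory.Presentable.Finite

/-!
# The small object argument for boundary inclusions
-/

open CategoryTheory Simplicial Limits MorphismProperty
open scoped SSet.modelCategoryQuillen

namespace Vale.Agent.P213

attribute [local instance] Cardinal.fact_isRegular_aleph0
  Cardinal.orderBotAleph0OrdToType

instance isSmall_boundaryI : MorphismProperty.IsSmall.{0} SSet.modelCategoryQuillen.I.{0} :=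
  isSmall_ofHoms ..

instance isCardinalForSmallObjectArgument_boundaryI :
    IsCardinalForSmallObjectArgument SSet.modelCategoryQuillen.I.{0} Cardinal.aleph0.{0} where
  preservesColimit {A B X Y} i hi f hf := by
    have : IsFinitelyPresentable.{0} A := by
      obtain ⟨n⟩ := hi
      infer_instance
    infer_instance

instance hasSmallObjectArgument_boundaryI :
    HasSmallObjectArgument.{0} SSet.modelCategoryQuillen.I.{0} :=
  ⟨.aleph0, inferInstance, inferInstance, inferInstance⟩

/-- The left factor of the small object argument is a monomorphism. -/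
theorem mono_of_llp_rlp_I {X Y : SSet.{0}} {f : X ⟶ Y}
    (hf : SSet.modelCategoryQuillen.I.{0}.rlp.llp f) : Mono f := by
  rw [SmallObject.llp_rlp_of_isCardinalForSmallObjectArgument_aleph0] at hf
  have h : (coproducts.{0} SSet.modelCategoryQuillen.I.{0}).pushouts ≤ monomorphisms SSet.{0} := by
    rw [pushouts_le_iff, coproducts_le_iff]
    exact SSet.modelCategoryQuillen.I_le_monomorphisms
  exact (retracts_le _) _
    (retracts_monotone ((transfiniteCompositionsOfShape_monotone (J := ℕ) h).trans
      (transfiniteCompositionsOfShape_le _ ℕ)) _ hf)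

/-- Every map is a monomorphism followed by a trivial fibration. -/
theorem exists_factor_trivFib {X Y : SSet.{0}} (g : X ⟶ Y) :
    ∃ (Z : SSet.{0}) (j : X ⟶ Z) (r : Z ⟶ Y),
      j ≫ r = g ∧ Mono j ∧ SSet.modelCategoryQuillen.I.{0}.rlp r :=
  let D := MorphismProperty.factorizationData SSet.modelCategoryQuillen.I.{0}.rlp.llp
    SSet.modelCategoryQuillen.I.{0}.rlp g
  ⟨D.Z, D.i, D.p, D.fac, mono_of_llp_rlp_I D.hi, D.hp⟩

end Vale.Agent.P213
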