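import Vale.Agent.P213.HT.MonoWEIff
import Vale.Agent.P213.WE.TrivFib
import Vale.Agent.P213.WE.SmallObject
import Vale.Agent.P213.Main.SSetGoals
import Mathlib.CategoryTheory.Functor.OfSequence

/-!
# Colimits of sequences of monomorphisms respect weak equivalences

Given `τ : F ⟶ F'`, build a third sequence `M` with `F ⟶ M` a relative (monomorphism and weak
equivalence) and `M ⟶ F'` a levelwise trivial fibration.
-/

open CategoryTheory Simplicial Limits MorphismProperty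
open scoped SSet.modelCategoryQuillen

namespace Vale.Agent.P213.SeqColim

variable {F F' : ℕ ⥤ SSet.{0}} (τ : F ⟶ F')

/-- A stage of the intermediate sequence. -/
structure Stage (k : ℕ) where
  M : SSet.{0}
  i : F.obj k ⟶ M
  r : M ⟶ F'.obj k
  fac : i ≫ r = τ.app k
  hi : (monomorphisms SSet.{0} ⊓ IsWE) i
  hr : SSet.modelCategoryQuillen.I.{0}.rlp r

variable {τ}

/-- The compatibility of two consecutive stages. -/
structure IsNext {k : ℕ} (S : Stage τ k) (S' : Stage τ (k + 1)) (s : S.M ⟶ S'.M) : Prop where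
  wi : F.map (homOfLE (k.le_add_right 1)) ≫ S'.i = S.i ≫ s
  wr : s ≫ S'.r = S.r ≫ F'.map (homOfLE (k.le_add_right 1))
  ext : ∀ {E B : SSet.{0}} (p : E ⟶ B), HT.preMaps p →
    ∀ (u : F.obj (k + 1) ⟶ E) (w : S.M ⟶ E) (v : S'.M ⟶ B),
      F.map (homOfLE (k.le_add_right 1)) ≫ u = S.i ≫ w → u ≫ p = S'.i ≫ v → w ≫ p = s ≫ v →
      ∃ w', S'.i ≫ w' = u ∧ s ≫ w' = w ∧ w' ≫ p = v

lemma exists_next (hτ : ∀ k, IsWE (τ.app k)) {k : ℕ} (S : Stage τ k)
    [Mono (F.map (homOfLE (k.le_add_right 1)))] :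
    ∃ (S' : Stage τ (k + 1)) (s : S.M ⟶ S'.M), IsNext S S' s := by
  let st := F.map (homOfLE (k.le_add_right 1))
  have sq : IsPushout st S.i (pushout.inl st S.i) (pushout.inr st S.i) := .of_hasPushout _ _
  have hinl : (monomorphisms SSet.{0} ⊓ IsWE) (pushout.inl st S.i) :=
    MorphismProperty.of_isPushout sq S.hi
  let g : pushout st S.i ⟶ F'.obj (k + 1) :=
    pushout.desc (τ.app (k + 1)) (S.r ≫ F'.map (homOfLE (k.le_add_right 1))) (by
      rw [← Category.assoc, S.fac]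
      exact τ.naturality _)
  obtain ⟨Z, j, r, hjr, hj, hr⟩ := exists_factor_trivFib g
  have hi₁ : Mono (pushout.inl st S.i) := hinl.1
  have hf : (pushout.inl st S.i ≫ j) ≫ r = τ.app (k + 1) := by
    rw [Category.assoc, hjr, pushout.inl_desc]
  have hw : IsWE (pushout.inl st S.i ≫ j) :=
    IsWE.of_comp_right (isWE_of_rlp_I hr) (by rw [hf]; exact hτ _)
  refine ⟨⟨Z, pushout.inl st S.i ≫ j, r, hf,
    ⟨inferInstanceAs (Mono (pushout.inl st S.i ≫ j)), hw⟩, hr⟩, pushout.inr st S.i ≫ j,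
    ⟨?_, ?_, ?_⟩⟩
  · exact sq.w_assoc _
  · rw [Category.assoc, hjr, pushout.inr_desc]
  · intro E B p hp u w v h₁ h₂ h₃
    have hjw : (monomorphisms SSet.{0} ⊓ IsWE) j := ⟨hj, IsWE.of_comp_left hinl.2 hw⟩
    rw [HT.monoWE_eq] at hjw
    have : HasLiftingProperty j p := hjw.2 p hp
    have sq' : CommSq (pushout.desc u w h₁) j p v := ⟨by
      apply pushout.hom_ext
      · rw [pushout.inl_desc_assoc, h₂]; simp [st]
      · rw [pushout.inr_desc_assoc, h₃]; simp [st]⟩
    exact ⟨sq'.lift, by rw [Category.assoc, sq'.fac_left]; exact pushout.inl_desc _ _ _,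
      by rw [Category.assoc, sq'.fac_left]; exact pushout.inr_desc _ _ _, sq'.fac_right⟩

lemma exists_zero (hτ : ∀ k, IsWE (τ.app k)) : Nonempty (Stage τ 0) := by
  obtain ⟨Z, j, r, hjr, hj, hr⟩ := exists_factor_trivFib (τ.app 0)
  exact ⟨⟨Z, j, r, hjr, ⟨hj, IsWE.of_comp_right (isWE_of_rlp_I hr) (by rw [hjr]; exact hτ 0)⟩,
    hr⟩⟩

/-- A whole intermediate sequence exists. -/
lemma exists_stages (hτ : ∀ k, IsWE (τ.app k))
    (hF : ∀ k, Mono (F.map (homOfLE (Nat.le_add_right k 1)))) :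
    ∃ (S : ∀ k, Stage τ k) (s : ∀ k, (S k).M ⟶ (S (k + 1)).M),
      ∀ k, IsNext (S k) (S (k + 1)) (s k) := by
  obtain ⟨S₀⟩ := exists_zero hτ
  choose next s hs using fun (k : ℕ) (S : Stage τ k) =>
    have := hF k
    exists_next hτ S
  let S : ∀ k, Stage τ k := fun k => Nat.rec S₀ (fun k S => next k S) k
  exact ⟨S, fun k => s k (S k), fun k => hs k (S k)⟩

variable {c : Cocone F} {c' : Cocone F'}

theorem isWE_desc (hc : IsColimit c) (hc' : IsColimit c') (f : c.pt ⟶ c'.pt)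
    (hf : ∀ k, c.ι.app k ≫ f = τ.app k ≫ c'.ι.app k) (hτ : ∀ k, IsWE (τ.app k))
    (hF : ∀ k, Mono (F.map (homOfLE (Nat.le_add_right k 1)))) : IsWE f := by
  obtain ⟨S, s, hs⟩ := exists_stages hτ hF
  let M : ℕ ⥤ SSet.{0} := Functor.ofSequence s
  have hMap : ∀ k : ℕ, M.map (homOfLE (Nat.le_add_right k 1)) = s k :=
    Functor.ofSequence_map_homOfLE_succ s
  let α : F ⟶ M := NatTrans.ofSequence (fun k => (S k).i) fun k => by
    rw [hMap]; exact (hs k).wi
  let β : M ⟶ F' := NatTrans.ofSequence (fun k => (S k).r) fun k => by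
    rw [hMap]; exact (hs k).wr
  let cM : Cocone M := colimit.cocone M
  let hM : IsColimit cM := colimit.isColimit M
  let i : c.pt ⟶ cM.pt := hc.map cM α
  let r : cM.pt ⟶ c'.pt := hM.map c' β
  have hir : i ≫ r = f := hc.hom_ext fun k => by
    rw [hf, ← (S k).fac, hc.ι_map_assoc, hM.ι_map, Category.assoc]
    rfl
  have hr : SSet.modelCategoryQuillen.I.{0}.rlp r := by
    rintro _ _ _ ⟨n⟩
    refine ⟨fun {u v} sq => ?_⟩
    obtain ⟨a, u₁, hu⟩ := IsFinitelyPresentable.exists_hom_of_isColimit hM u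
    obtain ⟨b, v₁, hv⟩ := IsFinitelyPresentable.exists_hom_of_isColimit hc' v
    obtain ⟨d, x, y, hd⟩ := IsFinitelyPresentable.exists_eq_of_isColimit hc'
      (u₁ ≫ β.app a) ((SSet.boundary n).ι ≫ v₁) (by
        rw [Category.assoc, Category.assoc, hv, ← sq.w, ← hu, Category.assoc]
        simp [r])
    have : HasLiftingProperty (SSet.boundary n).ι (β.app d) :=
      (S d).hr _ (SSet.modelCategoryQuillen.boundary_ι_mem_I n)
    have sq' : CommSq (u₁ ≫ M.map x) (SSet.boundary n).ι (β.app d) (v₁ ≫ F'.map y) := ⟨by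
      rw [Category.assoc, β.naturality, ← Category.assoc, hd, Category.assoc]⟩
    refine ⟨⟨{ l := sq'.lift ≫ cM.ι.app d, fac_left := ?_, fac_right := ?_ }⟩⟩
    · rw [sq'.fac_left_assoc, Category.assoc, cM.w, hu]
    · rw [Category.assoc, show cM.ι.app d ≫ r = β.app d ≫ c'.ι.app d by simp [r],
        sq'.fac_right_assoc, Category.assoc, c'.w, hv]
  have hi : IsWE i := by
    refine HT.isWE_of_rlp_pre ((HT.llp_preMaps_iff i).1 ?_)
    intro E B p hp
    refine ⟨fun {u v} sq => ?_⟩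
    have hfac : ∀ k, c.ι.app k ≫ i = (S k).i ≫ cM.ι.app k := fun k => hc.ι_map cM α k
    let P : ∀ k, ((S k).M ⟶ E) → Prop := fun k w =>
      (S k).i ≫ w = c.ι.app k ≫ u ∧ w ≫ p = cM.ι.app k ≫ v
    have h₀ : ∃ w, P 0 w := by
      have h := (S 0).hi
      rw [HT.monoWE_eq] at h
      have : HasLiftingProperty (S 0).i p := h.2 p hp
      have sq₀ : CommSq (c.ι.app 0 ≫ u) (S 0).i p (cM.ι.app 0 ≫ v) := ⟨by
        rw [Category.assoc, sq.w, ← Category.assoc, hfac]; exact Category.assoc _ _ _⟩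
      exact ⟨sq₀.lift, sq₀.fac_left, sq₀.fac_right⟩
    have hcs : ∀ k, s k ≫ cM.ι.app (k + 1) = cM.ι.app k := fun k => by
      have h := cM.w (homOfLE (Nat.le_add_right k 1))
      rwa [hMap] at h
    have hstep : ∀ k (w : (S k).M ⟶ E), P k w → ∃ w', P (k + 1) w' ∧ s k ≫ w' = w := by
      intro k w hw
      obtain ⟨w', h₁, h₂, h₃⟩ := (hs k).ext p hp (c.ι.app (k + 1) ≫ u) w (cM.ι.app (k + 1) ≫ v)
        (by rw [c.w_assoc]; exact hw.1.symm)
        (by rw [Category.assoc, sq.w, ← Category.assoc, hfac]; exact Category.assoc _ _ _)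
        (hw.2.trans ((congrArg (· ≫ v) (hcs k)).symm.trans (Category.assoc _ _ _)))
      exact ⟨w', ⟨h₁, h₃⟩, h₂⟩
    choose nxt hn₁ hn₂ using hstep
    let W : ∀ k, { w : (S k).M ⟶ E // P k w } := fun k =>
      Nat.rec ⟨h₀.choose, h₀.choose_spec⟩ (fun k w => ⟨nxt k w.1 w.2, hn₁ k w.1 w.2⟩) k
    let γ : Cocone M :=
      { pt := E
        ι := NatTrans.ofSequence (fun k => (W k).1) fun k => by
          rw [hMap]
          exact (hn₂ k (W k).1 (W k).2).trans (Category.comp_id _).symm }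
    refine ⟨⟨{ l := hM.desc γ, fac_left := ?_, fac_right := ?_ }⟩⟩
    · refine hc.hom_ext fun k => ?_
      rw [← Category.assoc, hfac]
      exact (Category.assoc _ _ _).trans
        ((congrArg ((S k).i ≫ ·) (hM.fac γ k)).trans (W k).2.1)
    · refine hM.hom_ext fun k => ?_
      rw [← Category.assoc, hM.fac]
      exact (W k).2.2
  rw [← hir]
  exact hi.comp (isWE_of_rlp_I hr)

end Vale.Agent.P213.SeqColim

namespace Vale.Agent.P213

theorem seqColimitGoal : SeqColimitGoal := fun _ _ _ _ _ f hc hc' hm hf hτ =>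
  SeqColim.isWE_desc hc.some hc'.some f hf hτ fun k => (hm k).1

end Vale.Agent.P213
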